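import Vale.Agent.P011UGB4.Kn
import Vale.Agent.P011UGA.IF
import Vale.Agent.P011UE.Spec
import Mathlib.Algebra.Quaternion

/-!
Type `B₂`: definitions and the statements of the steps.
-/

set_option autoImplicit false
set_option linter.all false

namespace Vale.Agent.P011UGB4

open Matrix Vale.Agent.P011L Vale.Agent.P183CH Vale.Agent.P011U
open scoped Quaternion

/-- The alternating form. -/
def Om (R : Type) [Ring R] : Matrix (Fin 4) (Fin 4) R :=
  !![0, 1, 0, 0; -1, 0, 0, 0; 0, 0, 0, 1; 0, 0, -1, 0]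

/-- The stabiliser of a bilinear form. -/
def Sb {n K : Type} [Fintype n] [DecidableEq n] [Field K] (M : Matrix n n K) :
    Subgroup (GL n K) where
  carrier := {g | g.1ᵀ * M * g.1 = M}
  mul_mem' := fun {a b} ha hb => by
    show (a.1 * b.1)ᵀ * M * (a.1 * b.1) = M
    rw [transpose_mul, Matrix.mul_assoc, Matrix.mul_assoc, ← Matrix.mul_assoc M,
      ← Matrix.mul_assoc a.1ᵀ, ← Matrix.mul_assoc a.1ᵀ, show a.1ᵀ * M * a.1 = M from ha,
      ← Matrix.mul_assoc]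
    exact hb
  one_mem' := by simp
  inv_mem' := fun {a} ha => by
    show (a⁻¹).1ᵀ * M * (a⁻¹).1 = M
    conv_lhs => rw [← show a.1ᵀ * M * a.1 = M from ha]
    rw [← Matrix.mul_assoc, ← Matrix.mul_assoc, ← transpose_mul, Matrix.mul_assoc, Units.mul_inv,
      transpose_one, Matrix.one_mul, Matrix.mul_one]

/-- The symplectic group. -/
abbrev Sp4 (K : Type) [Field K] : Subgroup (GL (Fin 4) K) := Sb (Om K)

/-- The simple root vectors; the node `0` is long. -/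
def eB : Fin 2 → Matrix (Fin 4) (Fin 4) ℤ :=
  ![!![0, 0, 0, 0; 0, 0, 0, 0; 0, 0, 0, 1; 0, 0, 0, 0],
    !![0, 0, 1, 0; 0, 0, 0, 0; 0, 0, 0, 0; 0, -1, 0, 0]]

/-- The negative simple root vectors. -/
def fB : Fin 2 → Matrix (Fin 4) (Fin 4) ℤ := fun i => (eB i)ᵀ

/-- Recognition. -/
def SP : Prop := ∀ D : Chev, SC D → ∀ e, Ty D.R (CartanMatrix.B 2) e →
  ∀ (K : Type) [Field K] [Infinite K], ∃ ψ : D.grp K ≃* Sp4 K, ∀ i t,
    (ψ ((GG D K).x (D.R.α i) t)).1.1 = 1 + t • (eB (e i)).map (Int.cast : ℤ → K) ∧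
    (ψ ((GG D K).x (-D.R.α i) t)).1.1 = 1 + t • (fB (e i)).map (Int.cast : ℤ → K)

/-- The unitary group of a matrix. -/
def UH {Q : Type} [Ring Q] [StarRing Q] (H : Matrix (Fin 2) (Fin 2) Q) :
    Subgroup (Matrix (Fin 2) (Fin 2) Q)ˣ where
  carrier := {g | g.1ᴴ * H * g.1 = H}
  mul_mem' := fun {a b} ha hb => by
    show (a.1 * b.1)ᴴ * H * (a.1 * b.1) = H
    rw [conjTranspose_mul, Matrix.mul_assoc, Matrix.mul_assoc, ← Matrix.mul_assoc H,
      ← Matrix.mul_assoc a.1ᴴ, ← Matrix.mul_assoc a.1ᴴ, show a.1ᴴ * H * a.1 = H from ha,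
      ← Matrix.mul_assoc]
    exact hb
  one_mem' := by simp
  inv_mem' := fun {a} ha => by
    show (a⁻¹).1ᴴ * H * (a⁻¹).1 = H
    conv_lhs => rw [← show a.1ᴴ * H * a.1 = H from ha]
    rw [← Matrix.mul_assoc, ← Matrix.mul_assoc, ← conjTranspose_mul, Matrix.mul_assoc,
      Units.mul_inv, conjTranspose_one, Matrix.one_mul, Matrix.mul_one]

/-- The hermitian matrix. -/
def Hc {k : Type} [Field k] (c₁ c₂ b c : k) : Matrix (Fin 2) (Fin 2) ℍ[k,c₁,c₂,b] :=
  diagonal ![algebraMap k _ c, 1]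

/-- Isotropic hermitian forms over quaternion division algebras, all characteristics. -/
def HYP : Prop := ∀ (k : Type) [Field k] [Infinite k] (c₁ c₂ b c : k), c ≠ 0 →
  c₂ ^ 2 + 4 * c₁ ≠ 0 → (∀ x : ℍ[k,c₁,c₂,b], x ≠ 0 → IsUnit x) →
    (∃ y : ℍ[k,c₁,c₂,b], star y * y = algebraMap k _ (-c)) → PSimple (UH (Hc c₁ c₂ b c))

/-- Every plane contains a good vector. -/
def GD : Prop := ∀ (k A : Type) [Field k] [NumberField k] [Ring A] [Algebra k A] (S : KS k A) u v,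
  S.F2 u v → ∃ x y : k, S.Gd (x • u + y • v)

/-- Anisotropic hermitian forms over number fields. -/
def ANI : Prop := ∀ (k : Type) [Field k] [NumberField k] (a b c : k), a ≠ 0 → b ≠ 0 → c ≠ 0 →
  (∀ x y : ℍ[k,a,0,b], algebraMap k _ c * (star x * x) + star y * y = 0 → x = 0 ∧ y = 0) →
    PSimple (UH (Hc a 0 b c))

end Vale.Agent.P011UGB4
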