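import Vale.Agent.P011UGB4.Main
import Vale.Agent.P011UG12.Main
import Vale.Agent.P011UGB5.Hyp
import Vale.Agent.P011UGB7.Ani

/-!
Type `B₂`: the plug.
-/

namespace Vale.Agent.P011UGB4

theorem bb2_gd (h : GD) : P011UGA.BB2 := bb2_of P011UG12.sp P011UGB5.hyp (P011UGB7.ani h)

end Vale.Agent.P011UGB4
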