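import Vale.Agent.P011UGB4.Defs
import Vale.Agent.P011UK.Opi
import Vale.Agent.P011UTS.Spl
import Vale.Agent.P011LT.Basic
import Vale.Agent.P011UI.Iso

/-!
Type `B₂`: the fixed points as a group of matrices.
-/

set_option autoImplicit false
set_option linter.all false

namespace Vale.Agent.P011UGB4

open Matrix Vale.Agent.P011L Vale.Agent.P183CH Vale.Agent.P011U Vale.Agent.P011UK
  Vale.Agent.P011UGA

theorem ps_map {G H : Type} [Group G] [Group H] (f : G →* H) (hf : Function.Injective f)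
    {A : Subgroup G} {B : Subgroup H} (h : A.map f = B) : PSimple A ↔ PSimple B :=
  h ▸ ⟨P011LT.PSimple.congr (A.equivMapOfInjective f hf).symm, P011LT.PSimple.congr (A.equivMapOfInjective f hf)⟩

/-- The elements which are intertwined by a matrix. -/
def Iw {G n K : Type} [Group G] [Fintype n] [DecidableEq n] [Field K] (f f' : G →* GL n K)
    (S : Matrix n n K) : Subgroup G where
  carrier := {g | (f g).1 * S = S * (f' g).1}
  mul_mem' := fun {a b} ha hb => by
    show _ = _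
    rw [map_mul, map_mul, Units.val_mul, Units.val_mul, mul_assoc, show _ = _ from hb, ← mul_assoc,
      show _ = _ from ha, mul_assoc]
  one_mem' := by simp
  inv_mem' := fun {a} ha => by
    show _ = _
    rw [map_inv, map_inv, Units.inv_mul_eq_iff_eq_mul, ← mul_assoc, show _ = _ from ha, mul_assoc,
      Units.mul_inv, mul_one]

variable {k K : Type} [Field k] [Field K] [Algebra k K] {n : Type} [Fintype n] [DecidableEq n]
  (ε : (K ≃ₐ[k] K) →* ℤˣ)

/-- the matrix of `σ` -/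
def sg (S : Matrix n n K) (σ : K ≃ₐ[k] K) : Matrix n n K := if ε σ = 1 then 1 else S

/-- The fixed points. -/
def Fx (M S : Matrix n n K) : Subgroup (GL n K) :=
  Sb M ⊓ ⨅ σ : K ≃ₐ[k] K, Iw (MonoidHom.id _) (gm (σ : K →+* K)) (sg ε S σ)

variable {ε}

theorem neg_of {σ : K ≃ₐ[k] K} (h : ¬ε σ = 1) : ε σ = -1 :=
  (Int.units_eq_one_or _).resolve_left h

theorem mem_Fx {M S : Matrix n n K} {g : GL n K} : g ∈ Fx ε M S ↔ g.1ᵀ * M * g.1 = M ∧
    ∀ σ, g.1 * sg ε S σ = sg ε S σ * g.1.map σ :=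
  Subgroup.mem_inf.trans (and_congr Iff.rfl Subgroup.mem_iInf)

theorem Fx_cj {M M' S S' : Matrix n n K} (P : GL n K) {μ : K} (h0 : μ ≠ 0)
    (h1 : P.1ᵀ * M * P.1 = μ • M')
    (h2 : ∀ σ, ∃ l : K, l ≠ 0 ∧ sg ε S σ * P.1.map σ = l • (P.1 * sg ε S' σ)) :
    PSimple (Fx ε M' S') ↔ PSimple (Fx ε M S) := by
  refine ps_map (MulAut.conj P).toMonoidHom (MulAut.conj P).injective (Subgroup.ext fun g => ?_)
  rw [Subgroup.mem_map_equiv, mem_Fx, mem_Fx]
  set g' := (MulAut.conj P).symm g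
  have e : P.1 * g'.1 = g.1 * P.1 := by
    rw [← Units.val_mul, ← Units.val_mul]
    simp [g', mul_assoc]
  have u1 : IsUnit P.1ᵀ := (isUnit_transpose _).2 P.isUnit
  refine and_congr ?_ (forall_congr' fun σ => ?_)
  · rw [← (smul_right_injective _ h0).eq_iff, ← u1.mul_right_inj (b := _ * _ * _),
      ← P.isUnit.mul_left_inj (b := P.1ᵀ * _)]
    show μ • _ = μ • _ ↔ _
    rw [← h1, ← smul_mul_assoc, ← mul_smul_comm, ← h1, ← mul_assoc, ← mul_assoc, ← transpose_mul,
      mul_assoc, e, transpose_mul]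
    simp only [mul_assoc]
  · obtain ⟨l, l0, hl⟩ := h2 σ
    have e' : P.1.map σ * g'.1.map σ = g.1.map σ * P.1.map σ := by
      rw [← Matrix.map_mul (f := σ), e, Matrix.map_mul]
    rw [← P.isUnit.mul_right_inj, ← (smul_right_injective _ l0).eq_iff,
      ← (gm (σ : K →+* K) P).isUnit.mul_left_inj (b := g.1 * _)]
    show l • _ = l • _ ↔ _ * P.1.map σ = _ * P.1.map σ
    rw [← mul_assoc, e, mul_assoc, ← mul_smul_comm, ← hl, ← mul_assoc P.1, ← smul_mul_assoc, ← hl,
      mul_assoc _ (P.1.map σ), e']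
    simp only [mul_assoc]

theorem Om_sq : Om K * Om K = -1 := by
  ext i j
  fin_cases i <;> fin_cases j <;> simp [Om, Matrix.mul_apply, Fin.sum_univ_four]

theorem ex_GL {P M : Matrix (Fin 4) (Fin 4) K} (h : M * P = 1) : ∃ g : GL (Fin 4) K, g.1 = P :=
  ⟨⟨P, M, mul_eq_one_comm.1 h, h⟩, rfl⟩

/-- The matrix of the action. -/
def Sm (d b : K) : Matrix (Fin 4) (Fin 4) K :=
  !![0, -d⁻¹, 0, 0; -(d * b), 0, 0, 0; 0, 0, 0, 1; 0, 0, b, 0]

theorem Sm_sq {d : K} (h : d ≠ 0) (b : K) : Sm d b * Sm d b = b • 1 := by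
  ext i j
  fin_cases i <;> fin_cases j <;> simp [Sm, Matrix.mul_apply, Fin.sum_univ_four, h, mul_comm]

theorem map_one_add (σ : K →+* K) (t : K) (E : Matrix n n ℤ) :
    (1 + t • E.map (Int.cast : ℤ → K)).map σ = 1 + σ t • E.map (Int.cast : ℤ → K) := by
  ext i j
  by_cases h : i = j <;> simp [one_apply, h]

theorem Sm_e {c : Fin 2 → K} (h : ∀ i, c i ≠ 0) (i : Fin 2) (t : K) :
    (1 + (c i * t) • (fB i).map (Int.cast : ℤ → K)) * Sm (c 1) (c 0) =
      Sm (c 1) (c 0) * (1 + t • (eB i).map (Int.cast : ℤ → K)) ∧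
    (1 + ((c i)⁻¹ * t) • (eB i).map (Int.cast : ℤ → K)) * Sm (c 1) (c 0) =
      Sm (c 1) (c 0) * (1 + t • (fB i).map (Int.cast : ℤ → K)) := by
  have h0 := h 0
  have h1 := h 1
  rw [add_mul, mul_add, add_mul, mul_add, one_mul, mul_one, add_right_inj, add_right_inj]
  fin_cases i <;> constructor <;> ext a b <;> fin_cases a <;> fin_cases b <;>
    simp [Sm, eB, fB, Matrix.mul_apply, Fin.sum_univ_four] <;> field_simp

theorem fix_Fx (sp : SP) {D : Chev} (hD : SC D) [Infinite K] {T : Tw k (D.grp K)} {π d}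
    (h : Opw T ε π d) {e} (he : Ty D.R (CartanMatrix.B 2) e) :
    (∀ σ i, π σ i = i) ∧
      (PSimple T.fix ↔ PSimple (Fx ε (Om K) (Sm (d (e.symm 1) : K) (d (e.symm 0))))) := by
  have hπ : ∀ σ i, π σ i = i := fun σ i => by
    have h1 := h.dg σ (e.symm 0) (e.symm 1)
    rw [he, he, e.apply_symm_apply, e.apply_symm_apply] at h1
    have h2 := (by intro a b; fin_cases a <;> fin_cases b <;> simp [CartanMatrix.B] :
      ∀ a b : Fin 2, CartanMatrix.B 2 a b = CartanMatrix.B 2 0 1 → a = 0 ∧ b = 1) _ _ h1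
    obtain ⟨j, rfl⟩ := e.symm.surjective i
    fin_cases j
    exacts [e.eq_symm_apply.2 h2.1, e.eq_symm_apply.2 h2.2]
  obtain ⟨ψ, hψ⟩ := sp D hD e he K
  set S := Sm (d (e.symm 1) : K) (d (e.symm 0))
  let f : D.grp K →* GL (Fin 4) K := (Sp4 K).subtype.comp ψ.toMonoidHom
  have hf : Function.Injective f := Subtype.val_injective.comp ψ.injective
  have key : ∀ σ g, (f (T.a σ g)).1 * sg ε S σ = sg ε S σ * (f g).1.map σ := fun σ g => by
    refine ((Subgroup.closure_le (Iw (f.comp (T.a σ).toMonoidHom) ((gm (σ : K →+* K)).comp f)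
      (sg ε S σ))).2 ?_) ((P011UI.gen_top D K).ge (Subgroup.mem_top g))
    have hS := Sm_e (c := fun j => (d (e.symm j) : K)) (fun j => Units.ne_zero _)
    rintro g ⟨i, t, e' | e'⟩
    · obtain rfl : g = (GG D K).x (D.R.α i) t :=
        Subtype.ext (Units.ext (e'.trans (congrArg Units.val (GG_e i t)).symm))
      show (ψ (T.a σ _)).1.1 * _ = _ * (ψ _).1.1.map (σ : K →+* K)
      rw [(hψ i t).1, map_one_add, sg]
      split_ifs with s
      · rw [(h.pos σ i t s).1, hπ, (hψ i _).1, one_mul, mul_one]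
        rfl
      · rw [(h.neg σ i t (neg_of s)).1, hπ, (hψ i _).2]
        have := (hS (e i) (σ t)).1
        simp only [e.symm_apply_apply] at this
        exact this
    · obtain rfl : g = (GG D K).x (-D.R.α i) t :=
        Subtype.ext (Units.ext (e'.trans (congrArg Units.val (GG_f i t)).symm))
      show (ψ (T.a σ _)).1.1 * _ = _ * (ψ _).1.1.map (σ : K →+* K)
      rw [(hψ i t).2, map_one_add, sg]
      split_ifs with s
      · rw [(h.pos σ i t s).2, hπ, (hψ i _).2, one_mul, mul_one]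
        rfl
      · rw [(h.neg σ i t (neg_of s)).2, hπ, (hψ i _).1]
        have := (hS (e i) (σ t)).2
        simp only [e.symm_apply_apply, ← Units.val_inv_eq_inv_val] at this
        exact this
  have un : ∀ σ, IsUnit (sg ε S σ) := fun σ => by
    rw [sg]
    split_ifs
    · exact isUnit_one
    · obtain ⟨g, hg⟩ := ex_GL (P := S) (M := (d (e.symm 0) : K)⁻¹ • S) (by
        rw [smul_mul_assoc, Sm_sq (Units.ne_zero _), smul_smul, inv_mul_cancel₀ (Units.ne_zero _),
          one_smul])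
      exact hg ▸ g.isUnit
  refine ⟨hπ, ps_map f hf (Subgroup.ext fun g => ⟨?_, fun hg => ?_⟩)⟩
  · rintro ⟨g, hg, rfl⟩
    exact mem_Fx.2 ⟨(ψ g).2, fun σ => by rw [← key, hg σ]⟩
  · obtain ⟨h1, h2⟩ := mem_Fx.1 hg
    obtain ⟨x, hx⟩ := ψ.surjective ⟨g, h1⟩
    obtain rfl : f x = g := congrArg Subtype.val hx
    exact ⟨x, fun σ => hf (Units.ext ((un σ).mul_left_inj.1 ((key σ x).trans (h2 σ).symm))), rfl⟩

theorem ps_split (sp : SP) {D : Chev} (hD : SC D) {e} (he : Ty D.R (CartanMatrix.B 2) e)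
    [Infinite k] [IsGalois k K] : PSimple (Fx ε (Om K) (1 : Matrix (Fin 4) (Fin 4) K)) := by
  obtain ⟨ψ, -⟩ := sp D hD e he k
  have h0 : (Om k).map (algebraMap k K) = Om K := by
    ext i j
    fin_cases i <;> fin_cases j <;> simp [Om]
  have h1 : ∀ g : GL (Fin 4) k, gm (algebraMap k K) g ∈ Sp4 K ↔ g ∈ Sp4 k := fun g => by
    show (g.1.map _)ᵀ * _ * g.1.map _ = _ ↔ g.1ᵀ * _ * g.1 = _
    rw [← h0, ← transpose_map, ← Matrix.map_mul, ← Matrix.map_mul]
    exact (Matrix.map_injective (algebraMap k K).injective).eq_iff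
  have h2 : ∀ σ, sg ε (1 : Matrix (Fin 4) (Fin 4) K) σ = 1 := fun σ => ite_self _
  refine (ps_map (gm (algebraMap k K)) (gm_inj _) (Subgroup.ext fun g => ⟨?_, fun hg => ?_⟩)).1
    (P011LT.PSimple.congr ψ.symm (P011UTS.psimple GG_ok (Chev.R_ok D)))
  · rintro ⟨g, hg, rfl⟩
    refine mem_Fx.2 ⟨(h1 g).2 hg, fun σ => ?_⟩
    rw [h2, one_mul, mul_one]
    exact Matrix.ext fun i j => (σ.commutes _).symm
  · have h3 : ∀ g ∈ Fx ε (Om K) (1 : Matrix (Fin 4) (Fin 4) K),
        ∃ m : Matrix (Fin 4) (Fin 4) k, m.map (algebraMap k K) = g.1 := fun g hg => by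
      choose m hm using fun i j => (InfiniteGalois.mem_range_algebraMap_iff_fixed (k := k)
        (g.1 i j)).2 fun σ => by
          have := (mem_Fx.1 hg).2 σ
          rw [h2, one_mul, mul_one] at this
          exact (congrFun (congrFun this i) j).symm
      exact ⟨of m, Matrix.ext hm⟩
    obtain ⟨m, hm⟩ := h3 g hg
    obtain ⟨m', hm'⟩ := h3 _ (inv_mem hg)
    obtain ⟨x, rfl⟩ := ex_GL (P := m) (M := m') (Matrix.map_injective (algebraMap k K).injective (by
      show (m' * m).map _ = (1 : Matrix _ _ k).map _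
      rw [Matrix.map_mul, hm, hm', Units.inv_mul, Matrix.map_one _ (map_zero _) (map_one _)]))
    obtain rfl : gm (algebraMap k K) x = g := Units.ext hm
    exact ⟨x, (h1 x).1 (mem_Fx.1 hg).1, rfl⟩

theorem to_split {d b : k} {u v z z' : K} (hd : d ≠ 0) (g : Cj ε u v) (ne : u ≠ v) (g' : Cj ε z z')
    (z0 : z ≠ 0) (z1 : z' ≠ 0) (hb : algebraMap k K b = z * z') :
    PSimple (Fx ε (Om K) (1 : Matrix (Fin 4) (Fin 4) K)) ↔
      PSimple (Fx ε (Om K) (Sm (algebraMap k K d) (algebraMap k K b))) := by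
  have d0 : algebraMap k K d ≠ 0 := (map_ne_zero _).2 hd
  have h0 : z' * (v - u) ≠ 0 := mul_ne_zero z1 (sub_ne_zero.2 ne.symm)
  let P : Matrix (Fin 4) (Fin 4) K := !![-(algebraMap k K d)⁻¹, u, 0, 0;
    z', -(algebraMap k K d * z' * v), 0, 0; 0, 0, 1, u; 0, 0, z', z' * v]
  have h1 : Pᵀ * Om K * P = (z' * (v - u)) • Om K := by
    ext i j
    fin_cases i <;> fin_cases j <;> simp [P, Om, Matrix.mul_apply, Fin.sum_univ_four] <;>
      field_simp <;> ring
  obtain ⟨p, hp⟩ := ex_GL (P := P) (M := (-(z' * (v - u))⁻¹) • (Om K * (Pᵀ * Om K))) (by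
    rw [smul_mul_assoc, mul_assoc, h1, mul_smul_comm, Om_sq, smul_smul, neg_mul,
      inv_mul_cancel₀ h0, neg_smul, one_smul, neg_neg])
  refine Fx_cj p h0 (hp ▸ h1) fun σ => ?_
  rw [hp, sg, sg, ite_self, mul_one]
  split_ifs with s
  · refine ⟨1, one_ne_zero, ?_⟩
    rw [one_mul, one_smul]
    ext i j
    fin_cases i <;> fin_cases j <;> simp [P, (g σ).1 s, (g' σ).1 s]
  · refine ⟨z, z0, ?_⟩
    ext i j
    fin_cases i <;> fin_cases j <;>
      simp [P, Sm, hb, Matrix.mul_apply, Fin.sum_univ_four, (g σ).2 (neg_of s),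
        (g' σ).2 (neg_of s)] <;> field_simp

end Vale.Agent.P011UGB4
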