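import Vale.Agent.P011UGB4.Ks
import Vale.Agent.P011L.IF

/-!
The argument of Kneser for anisotropic spin groups in five variables.
-/

set_option autoImplicit false
set_option linter.all false

namespace Vale.Agent.P011UGB4

open Module QuadraticMap Vale.Agent.P011L

namespace KS

variable {k A : Type} [Field k] [Ring A] [Algebra k A] {S : KS k A}

variable (S) in
/-- the stabiliser of `s` is simple modulo the centre -/
structure Gd (s : A) : Prop where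
  m : s ∈ S.W
  n : s ≠ 0
  h : ∀ N : Subgroup S.G, N.Normal → ∀ m ∈ N, vl m * s = s * vl m →
    (∀ c, vl m ≠ algebraMap k A c) → ∀ g : S.G, vl g * s = s * vl g → g ∈ N

theorem F2.st {a b : A} (h : S.F2 a b) : S.st (a * b) = -(a * b) := by
  rw [S.mul, S.sym _ h.ma, S.sym _ h.mb, h.ab.symm]

theorem F2.sq {a b : A} (h : S.F2 a b) : a * b * (a * b) = -(S.q a * S.q b) • (1 : A) := by
  rw [mul_assoc, h.ab.symm.mv, mul_neg, sq2 h.ma, sq1 h.mb, smul_smul, neg_smul]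

theorem F2.cj {a b : A} (h : S.F2 a b) (g : S.G) :
    S.F2 (vl g * a * vl g⁻¹) (vl g * b * vl g⁻¹) := by
  have z : ∀ x : A, x ≠ 0 → vl g * x * vl g⁻¹ ≠ 0 := fun x h0 e => h0 (by
    have := congrArg (fun y => vl g⁻¹ * y * vl g) e
    simpa only [mul_assoc, vl_1, vl_3, mul_one, mul_zero, zero_mul] using this)
  refine ⟨vl_mem g h.ma, vl_mem g h.mb, z _ h.na, z _ h.nb, ?_⟩
  show _ = _
  simp only [mul_assoc, vl_3]
  rw [h.ab.mv, mul_neg]

variable [CharZero k]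

theorem skew {p : A} (h : S.st p = -p) {x y x' : k} (e : x • (1 : A) + y • p = x' • 1) :
    y • p = 0 := by
  have h1 := congrArg S.st e
  rw [map_add, map_smul, map_smul, map_smul, S.one, h, ← e, smul_neg, add_right_inj,
    neg_eq_iff_add_eq_zero, ← two_smul k] at h1
  exact (smul_eq_zero.1 h1).resolve_left two_ne_zero

theorem F2.rot {a b : A} (h : S.F2 a b) :
    ∃ (g : S.G) (x y : k), x ≠ 0 ∧ y ≠ 0 ∧ vl g = x • (1 : A) + y • (a * b) := by
  set n := S.q a * S.q b with hn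
  obtain ⟨t, t0, ht⟩ : ∃ t : k, t ≠ 0 ∧ 1 - t ^ 2 * n ≠ 0 := by
    by_cases e : 1 - (1 : k) ^ 2 * n = 0
    · exact ⟨2, two_ne_zero, fun e' => by
        have : (3 : k) = 0 := by linear_combination 4 * e - e'
        norm_num at this⟩
    · exact ⟨1, one_ne_zero, e⟩
  have m1 : ∀ x y : k, (x • (1 : A) + y • -(a * b)) * (x • (1 : A) + y • (a * b)) =
      (x ^ 2 + y ^ 2 * n) • (1 : A) ∧ (x • (1 : A) + y • (a * b)) * (x • (1 : A) + y • -(a * b)) =
      (x ^ 2 + y ^ 2 * n) • (1 : A) := fun x y => by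
    simp only [add_mul, mul_add, smul_mul_smul_comm, one_mul, mul_one, neg_mul, mul_neg, h.sq,
      smul_neg, ← hn]
    constructor <;> module
  have s1 : ∀ x y : k, S.st (x • (1 : A) + y • (a * b)) = x • (1 : A) + y • -(a * b) :=
    fun x y => by rw [map_add, map_smul, map_smul, S.one, h.st]
  have h0 : 1 + t ^ 2 * n ≠ 0 := fun e => by
    have h1 := S.ani _ (by rw [s1 1 t, (m1 1 t).1, one_pow, e, zero_smul])
    have h2 := skew (x' := 0) h.st (h1.trans (zero_smul _ _).symm)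
    rw [h2, add_zero, one_smul] at h1
    exact one_ne_zero (S.inj (by rw [map_one, map_zero, h1]))
  have e1 : ((1 - t ^ 2 * n) / (1 + t ^ 2 * n)) ^ 2 + (2 * t / (1 + t ^ 2 * n)) ^ 2 * n = 1 := by
    field_simp
    ring
  obtain ⟨g, hg⟩ := ex_G (S := S) (a := ((1 - t ^ 2 * n) / (1 + t ^ 2 * n)) • (1 : A) +
    (2 * t / (1 + t ^ 2 * n)) • (a * b)) (by rw [s1, (m1 _ _).1, e1, one_smul])
    (by rw [s1, (m1 _ _).2, e1, one_smul])
  exact ⟨g, _, _, div_ne_zero ht h0, div_ne_zero (mul_ne_zero two_ne_zero t0) h0, hg⟩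

theorem F2.ne {a b : A} (h : S.F2 a b) : a * b ≠ 0 := fun e =>
  h.na (cancel h.mb h.nb (e.trans (zero_mul _).symm))

theorem comm_inv {g : S.G} {z : A} (h : vl g * z = z * vl g) : vl g⁻¹ * z = z * vl g⁻¹ := by
  have := congrArg (fun y => vl g⁻¹ * y * vl g⁻¹) h
  simpa only [mul_assoc, vl_2, vl_3, mul_one] using this.symm

theorem F2.com {a b : A} (h : S.F2 a b) {N : Subgroup S.G} (hN : N.Normal) {n : S.G} (hn : n ∈ N)
    (e : vl n * (a * b) ≠ a * b * vl n) : ∃ m ∈ N, (∀ c, vl m ≠ algebraMap k A c) ∧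
      ∀ z, Or z a → Or z b → Or z (vl n * a * vl n⁻¹) → Or z (vl n * b * vl n⁻¹) →
        vl m * z = z * vl m := by
  obtain ⟨g, x, y, x0, y0, hg⟩ := h.rot
  have h' := h.cj n
  set a' := vl n * a * vl n⁻¹
  set b' := vl n * b * vl n⁻¹
  have e1 : a' * b' * vl n = vl n * (a * b) := by
    simp only [a', b', mul_assoc, vl_3, vl_1, mul_one]
  have e2 : vl (n * g * n⁻¹) = x • (1 : A) + y • (a' * b') := by
    simp only [vl_mul, hg, a', b', mul_add, add_mul, mul_smul_comm, smul_mul_assoc, mul_assoc,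
      vl_3, one_mul, vl_2]
  refine ⟨n * g * n⁻¹ * g⁻¹, ?_, fun c hc => e ?_, fun z h1 h2 h3 h4 => ?_⟩
  · rw [mul_assoc, mul_assoc, ← mul_assoc g]
    exact mul_mem hn (hN.conj_mem _ (inv_mem hn) g)
  · have h1 : x • (1 : A) + y • (a' * b') = c • (x • (1 : A) + y • (a * b)) := by
      rw [← e2, ← hg, Algebra.smul_def, ← hc, ← vl_mul, inv_mul_cancel_right]
    have h2 : S.st (y • (a' * b') - (c * y) • (a * b)) = -(y • (a' * b') - (c * y) • (a * b)) := by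
      rw [map_sub, map_smul, map_smul, h.st, h'.st]
      module
    have h3 := skew (x := x) (y := 1) (x' := c * x) h2 (by
      rw [one_smul, ← add_sub_assoc, h1, smul_add, smul_smul, smul_smul, add_sub_cancel_right])
    have h4 : (c * x - x) • (1 : A) = 0 := by
      rw [smul_add, smul_smul, smul_smul, ← sub_eq_iff_eq_add, add_sub_assoc, ← one_smul k (_ - _),
        h3, add_zero] at h1
      rw [sub_smul, h1, sub_self]
    rw [← Algebra.algebraMap_eq_smul_one, map_eq_zero_iff _ S.inj] at h4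
    obtain rfl : c = 1 := mul_right_cancel₀ x0 (by linear_combination h4)
    rw [one_smul, one_mul, sub_eq_zero] at h3
    rw [← e1, smul_right_injective _ y0 h3]
  · have c1 : vl g * z = z * vl g := by
      rw [hg, add_mul, mul_add, smul_mul_assoc, smul_mul_assoc, mul_smul_comm, mul_smul_comm,
        one_mul, mul_one, h1.comm h2]
    have c2 : vl (n * g * n⁻¹) * z = z * vl (n * g * n⁻¹) := by
      rw [e2, add_mul, mul_add, smul_mul_assoc, smul_mul_assoc, mul_smul_comm, mul_smul_comm,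
        one_mul, mul_one, h3.comm h4]
    rw [vl_mul, mul_assoc, comm_inv c1, ← mul_assoc, c2, mul_assoc]

theorem proj {w v : A} (hw : w ∈ S.W) (h0 : w ≠ 0) (hv : v ∈ S.W) :
    ∃ (c : k) (y : A), y ∈ S.W ∧ Or w y ∧ v = y + c • w := by
  have h1 := q_ne hw h0
  have h2 : v - (polar S.q w v / (2 * S.q w)) • w ∈ S.W := sub_mem hv (S.W.smul_mem _ hw)
  refine ⟨polar S.q w v / (2 * S.q w), _, h2, (or_iff hw h2).1 ?_, (sub_add_cancel _ _).symm⟩
  rw [polar_sub_right, polar_smul_right, polar_self, two_smul, smul_eq_mul]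
  field_simp
  ring

theorem start {N : Subgroup S.G} (hN : N.Normal) (hc : ¬N ≤ Subgroup.center S.G) :
    ∃ m ∈ N, (∀ c, vl m ≠ algebraMap k A c) ∧
      ∃ u v, S.F2 u v ∧ vl m * u = u * vl m ∧ vl m * v = v * vl m := by
  obtain ⟨n, hn, h1⟩ := SetLike.not_le_iff_exists.1 hc
  obtain ⟨a, b, h, e⟩ : ∃ a b, S.F2 a b ∧ vl n * (a * b) ≠ a * b * vl n := by
    by_contra hx
    push Not at hx
    obtain ⟨t, ht⟩ := S.cen (vl n) fun w hw => by
      by_cases h0 : w = 0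
      · rw [h0, mul_zero, zero_mul]
      obtain ⟨b, c, d, e, h⟩ := ext1 hw h0
      obtain ⟨t, t0, h2, -⟩ := h.om
      apply smul_right_injective _ t0
      show t • _ = t • _
      rw [← mul_smul_comm, ← smul_mul_assoc, ← h2, ← mul_assoc,
        hx b c ⟨h.mb, h.mc, h.nb, h.nc, h.bc⟩, mul_assoc, hx d e ⟨h.md, h.me, h.nd, h.ne, h.de⟩,
        ← mul_assoc]
    exact h1 (Subgroup.mem_center_iff.2 fun g => vl_ext (by
      rw [vl_mul, vl_mul, ht, Algebra.commutes]))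
  obtain ⟨m, hm, h2, h3⟩ := h.com hN hn e
  obtain ⟨w, w1, w0, w2, w3, w4, w5⟩ := ex4 h.ma h.mb (h.cj n).ma (h.cj n).mb
  have h4 := h3 w w2.symm w3.symm w4.symm w5.symm
  obtain ⟨y, y1, y2, y3⟩ : ∃ y ∈ S.W, Or w y ∧ vl m * y ≠ y * vl m := by
    by_contra hx
    push Not at hx
    obtain ⟨t, ht⟩ := S.cen (vl m) fun v hv => by
      obtain ⟨c, y, y1, y2, rfl⟩ := proj w1 w0 hv
      rw [mul_add, add_mul, hx y y1 y2, mul_smul_comm, smul_mul_assoc, h4]
    exact h2 t ht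
  have f : S.F2 y w := ⟨y1, w1, fun e => y3 (by rw [e, mul_zero, zero_mul]), w0, y2.symm⟩
  obtain ⟨m', hm', h5, h6⟩ := f.com hN hm fun e => y3 (cancel w1 w0 (by
    rw [mul_assoc, e, mul_assoc, mul_assoc, h4]))
  obtain ⟨u, v, g, g1, g2, g3⟩ := ex2 y1 w1 (f.cj m).ma
  have h7 : vl m * w * vl m⁻¹ = w := by rw [h4, mul_assoc, vl_2, mul_one]
  exact ⟨m', hm', h5, u, v, g, h6 u g1.1.symm g2.1.symm g3.1.symm (h7.symm ▸ g2.1.symm),
    h6 v g1.2.symm g2.2.symm g3.2.symm (h7.symm ▸ g2.2.symm)⟩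

theorem comb {z u v : A} (h : z * u = u * z) (h' : z * v = v * z) (x y : k) :
    z * (x • u + y • v) = (x • u + y • v) * z := by
  rw [mul_add, add_mul, mul_smul_comm, mul_smul_comm, smul_mul_assoc, smul_mul_assoc, h, h']

theorem all_Gd (hg : ∀ u v, S.F2 u v → ∃ x y : k, S.Gd (x • u + y • v)) {N : Subgroup S.G}
    (hN : N.Normal) (hc : ¬N ≤ Subgroup.center S.G) {s : A} (hs : S.Gd s) (g : S.G)
    (e : vl g * s = s * vl g) : g ∈ N := by
  obtain ⟨m, hm, h1, u, v, f, h2, h3⟩ := start hN hc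
  obtain ⟨x, y, h4⟩ := hg u v f
  obtain ⟨a, b, f', g1, g2, -⟩ := ex2 hs.m h4.m hs.m
  obtain ⟨r, α, β, -, h6, hr⟩ := f'.rot
  have c : ∀ z, Or z a → Or z b → vl r * z = z * vl r := fun z h1 h2 => by
    rw [hr, add_mul, mul_add, smul_mul_assoc, smul_mul_assoc, mul_smul_comm, mul_smul_comm,
      one_mul, mul_one, h1.comm h2]
  refine hs.h N hN r (h4.h N hN m hm (comb h2 h3 x y) h1 r (c _ g2.1 g2.2)) (c _ g1.1 g1.2)
    (fun t ht => f'.ne ?_) g e
  rw [hr, Algebra.algebraMap_eq_smul_one] at ht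
  exact (smul_eq_zero.1 (skew f'.st ht)).resolve_left h6

variable (S) in
/-- the orthogonal space of a vector -/
noncomputable def pp (s : A) : Submodule k S.W :=
  LinearMap.ker ((S.q.polarBilin s).comp S.W.subtype)

theorem mem_pp {s : A} (hs : s ∈ S.W) {v : S.W} : v ∈ S.pp s ↔ Or s v := or_iff hs v.2

theorem F5.neg {a b c d e : A} (h : S.F5 a b c d e) (φ : k →+* ℝ) (h1 : φ (S.q a) < 0) :
    (∃ v : S.pp a, 0 < φ (S.q v)) ∧ ∃ v : S.pp a, φ (S.q v) < 0 := by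
  obtain ⟨t, t0, -, h2⟩ := h.om
  have h3 : φ (S.q b) * φ (S.q c) * φ (S.q d) * φ (S.q e) < 0 := by
    rw [← map_mul, ← map_mul, ← map_mul, ← h2, map_mul, map_pow]
    exact mul_neg_of_pos_of_neg (pow_pos_of_ne _ ((map_ne_zero φ).2 t0)) h1
  let b' : S.pp a := ⟨⟨b, h.mb⟩, (mem_pp h.ma).2 h.ab⟩
  let c' : S.pp a := ⟨⟨c, h.mc⟩, (mem_pp h.ma).2 h.ac⟩
  let d' : S.pp a := ⟨⟨d, h.md⟩, (mem_pp h.ma).2 h.ad⟩
  let e' : S.pp a := ⟨⟨e, h.me⟩, (mem_pp h.ma).2 h.ae⟩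
  constructor <;> by_contra hx <;> push Not at hx
  · exact h3.not_ge (by
      rw [mul_assoc]
      exact mul_nonneg (mul_nonneg_of_nonpos_of_nonpos (hx b') (hx c'))
        (mul_nonneg_of_nonpos_of_nonpos (hx d') (hx e')))
  · exact h3.not_ge (mul_nonneg (mul_nonneg (mul_nonneg (hx b') (hx c')) (hx d')) (hx e'))
where pow_pos_of_ne (x : ℝ) (h : x ≠ 0) : 0 < x ^ 2 := by positivity

end KS

namespace KS

variable {k A : Type} [Field k] [NumberField k] [Ring A] [Algebra k A] {S : KS k A}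

theorem sgn {V : Type} [AddCommGroup V] [Module k V] (q : QuadraticForm k V)
    (P : (k →+* ℝ) → Prop) (h : ∀ φ, P φ → ∃ v, φ (q v) < 0) (h0 : ∃ v : V, v ≠ 0) :
    ∃ v, v ≠ 0 ∧ ∀ φ, P φ → φ (q v) < 0 := by
  classical
  by_cases hP : ∃ φ, P φ
  · obtain ⟨ψ, hψ⟩ := hP
    obtain ⟨y, hy⟩ := P011UM5.exists_signs q (fun _ => -1) (Finset.univ.filter P) fun φ hφ =>
      (h φ (Finset.mem_filter.1 hφ).2).imp fun v hv => by linarith
    have h1 : ∀ φ, P φ → φ (q y) < 0 := fun φ hφ => by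
      have := hy φ (Finset.mem_filter.2 ⟨Finset.mem_univ _, hφ⟩)
      linarith
    refine ⟨y, fun e => ?_, h1⟩
    have := h1 ψ hψ
    rw [e, map_zero, map_zero] at this
    exact lt_irrefl _ this
  · exact h0.imp fun v hv => ⟨hv, fun φ hφ => absurd ⟨φ, hφ⟩ hP⟩

theorem base (hg : ∀ u v, S.F2 u v → ∃ x y : k, S.Gd (x • u + y • v)) :
    ∃ s, S.Gd s ∧ ∀ φ : k →+* ℝ, (∃ w : S.W, φ (S.q w) < 0) → φ (S.q s) < 0 := by
  obtain ⟨w, w1, w0, -⟩ := ex4 S.W.zero_mem S.W.zero_mem S.W.zero_mem S.W.zero_mem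
  obtain ⟨u, u0, hu⟩ := sgn (S.q.comp S.W.subtype) (fun φ => ∃ w : S.W, φ (S.q w) < 0)
    (fun _ h => h) ⟨⟨w, w1⟩, fun e => w0 (congrArg Subtype.val e)⟩
  have u1 : u.1 ≠ 0 := fun e => u0 (Subtype.ext e)
  obtain ⟨b, c, d, e, h⟩ := ext1 u.2 u1
  obtain ⟨v, v0, hv⟩ := sgn (S.q.comp (S.W.subtype.comp (S.pp u).subtype))
    (fun φ => ∃ w : S.W, φ (S.q w) < 0) (fun φ hφ => (h.neg φ (hu φ hφ)).2)
    ⟨(⟨⟨b, h.mb⟩, (mem_pp h.ma).2 h.ab⟩ : S.pp u),
      fun e => h.nb (congrArg (fun x : S.pp u => x.1.1) e)⟩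
  have f : S.F2 u v := ⟨u.2, v.1.2, u1, fun e => v0 (Subtype.ext (Subtype.ext e)),
    (mem_pp u.2).1 v.2⟩
  obtain ⟨x, y, hs⟩ := hg _ _ f
  refine ⟨_, hs, fun φ hφ => ?_⟩
  have h1 : φ (S.q u) < 0 := hu φ hφ
  have h2 : φ (S.q v) < 0 := hv φ hφ
  have h3 := (map_ne_zero φ).2 (q_ne hs.m hs.n)
  rw [P011UM5.q_comb, (or_iff f.ma f.mb).2 f.ab, mul_zero, add_zero, map_add, map_mul, map_mul,
    map_pow, map_pow] at h3 ⊢
  exact lt_of_le_of_ne (by nlinarith [sq_nonneg (φ x), sq_nonneg (φ y)]) h3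

theorem rep {s x : A} (hs : s ∈ S.W) (s0 : s ≠ 0) (hx : x ∈ S.W) (x0 : x ≠ 0)
    (h : ∀ φ : k →+* ℝ, (∃ w : S.W, φ (S.q w) < 0) → φ (S.q s) < 0) :
    ∃ y ∈ S.W, Or s y ∧ S.q y = S.q x := by
  haveI := S.fin
  obtain ⟨b, c, d, e, f⟩ := ext1 hs s0
  have h1 : 4 ≤ finrank k (S.pp s) := by
    have h2 := LinearMap.finrank_range_add_finrank_ker ((S.q.polarBilin s).comp S.W.subtype)
    have h3 := Submodule.finrank_le (LinearMap.range ((S.q.polarBilin s).comp S.W.subtype))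
    rw [finrank_self] at h3
    rw [S.dim] at h2
    unfold pp
    omega
  let Q : QuadraticForm k (S.pp s × k) :=
    (S.q.comp (S.W.subtype.comp (S.pp s).subtype)).prod (-S.q x • QuadraticMap.sq)
  have hQ : ∀ v t, Q (v, t) = S.q v - S.q x * (t * t) := fun v t => by
    simp [Q, sub_eq_add_neg]
  have q0 := q_ne hx x0
  haveI : Module.Free k (S.pp s) := Module.Free.of_divisionRing k (S.pp s)
  obtain ⟨⟨v, t⟩, v0, hv⟩ := P011UM5.hm5 k (S.pp s × k) Q (by rw [finrank_prod, finrank_self]; omega)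
    fun φ => by
      have e1 : φ (Q (0, 1)) = -φ (S.q x) := by simp [hQ]
      have e2 : ∀ v, φ (Q (v, 0)) = φ (S.q v) := fun v => by simp [hQ]
      rcases lt_or_gt_of_ne ((map_ne_zero φ).2 q0) with h2 | h2
      · obtain ⟨v, hv⟩ := (f.neg φ (h φ ⟨⟨x, hx⟩, h2⟩)).2
        exact ⟨⟨(0, 1), by rw [e1]; linarith⟩, (v, 0), (e2 v).trans_lt hv⟩
      · refine ⟨?_, (0, 1), by rw [e1]; linarith⟩
        by_cases h3 : ∃ w : S.W, φ (S.q w) < 0
        · obtain ⟨v, hv⟩ := (f.neg φ (h φ h3)).1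
          exact ⟨(v, 0), hv.trans_eq (e2 v).symm⟩
        · push Not at h3
          exact ⟨(⟨⟨b, f.mb⟩, (mem_pp hs).2 f.ab⟩, 0), e2 _ ▸ lt_of_le_of_ne (h3 ⟨b, f.mb⟩)
            ((map_ne_zero φ).2 (q_ne f.mb f.nb)).symm⟩
  rw [hQ] at hv
  have t0 : t ≠ 0 := fun e => v0 (by
    rw [e, mul_zero, mul_zero, sub_zero] at hv
    have : v.1.1 = 0 := by_contra fun h => q_ne v.1.2 h hv
    rw [e, show v = 0 from Subtype.ext (Subtype.ext this)]
    rfl)
  refine ⟨t⁻¹ • v.1.1, S.W.smul_mem _ v.1.2, ((mem_pp hs).1 v.2).smul _, ?_⟩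
  rw [QuadraticMap.map_smul, smul_eq_mul, sub_eq_zero.1 hv]
  field_simp

theorem psimple (hg : ∀ u v, S.F2 u v → ∃ x y : k, S.Gd (x • u + y • v)) : PSimple S.G := by
  intro N hN hc
  obtain ⟨s, hs, h⟩ := base hg
  refine (Subgroup.eq_top_iff' N).2 fun g => ?_
  have m1 := vl_mem g hs.m
  set s1 := vl g * s * vl g⁻¹ with e1
  have e2 : s1 * vl g = vl g * s := by rw [e1, mul_assoc, vl_1, mul_one]
  by_cases x0 : s - s1 = 0
  · exact all_Gd hg hN hc hs g (by rw [← e2, ← sub_eq_zero.1 x0])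
  have hx := sub_mem hs.m m1
  have e3 : s1 * s1 = s * s := by
    simp only [e1, mul_assoc, vl_3, sq2 hs.m, sq1 hs.m, mul_smul_comm, vl_2]
  have e4 : (s - s1) * s = -(s1 * (s - s1)) := by
    rw [sub_mul, mul_sub, e3, neg_sub]
  generalize s - s1 = x at x0 hx e4
  obtain ⟨y, hy, h1, h2⟩ := rep hs.m hs.n hx x0 h
  have q0 := q_ne hx x0
  have e5 : S.st ((S.q x)⁻¹ • (x * y)) = (S.q x)⁻¹ • (y * x) := by
    rw [map_smul, S.mul, S.sym _ hx, S.sym _ hy]
  obtain ⟨r, hr⟩ := ex_G (S := S) (a := (S.q x)⁻¹ • (x * y)) (by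
    rw [e5, smul_mul_smul_comm, mul_assoc, sq2 hx, mul_smul_comm, sq1 hy, smul_smul, smul_smul, h2,
      show (S.q x)⁻¹ * (S.q x)⁻¹ * S.q x * S.q x = 1 by field_simp, one_smul]) (by
    rw [e5, smul_mul_smul_comm, mul_assoc, sq2 hy, mul_smul_comm, sq1 hx, smul_smul, smul_smul, h2,
      show (S.q x)⁻¹ * (S.q x)⁻¹ * S.q x * S.q x = 1 by field_simp, one_smul])
  have e6 : vl r * s = s1 * vl r := by
    rw [hr, smul_mul_assoc, mul_smul_comm, mul_assoc, h1.symm, mul_neg, ← mul_assoc, e4, neg_mul,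
      neg_neg, mul_assoc]
  obtain ⟨u, v, f, g1, g2, -⟩ := ex2 hx hy hx
  obtain ⟨α, β, h3⟩ := hg u v f
  have c : ∀ z, Or x z → Or y z → vl r * z = z * vl r := fun z a b => by
    rw [hr, smul_mul_assoc, mul_smul_comm, a.symm.comm b.symm]
  have h4 := all_Gd hg hN hc h3 r (comb (c _ g1.1 g2.1) (c _ g1.2 g2.2) α β)
  have h5 := all_Gd hg hN hc hs (r⁻¹ * g) (by
    have := congrArg (fun z => vl r⁻¹ * z * (vl r⁻¹ * vl g)) e6
    simp only [mul_assoc, vl_3, vl_4] at this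
    rw [vl_mul, mul_assoc, ← e2, this])
  rw [← mul_inv_cancel_left r g]
  exact mul_mem h4 h5

end KS

end Vale.Agent.P011UGB4
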