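import Vale.Agent.P011UM5.Main

/-!
Algebras with an anisotropic involution which are generated by a quadratic space of dimension five.
-/

set_option autoImplicit false
set_option linter.all false

namespace Vale.Agent.P011UGB4

open Module QuadraticMap

/-- The data. -/
structure KS (k A : Type) [Field k] [Ring A] [Algebra k A] where
  st : A →ₗ[k] A
  W : Submodule k A
  mul : ∀ a b, st (a * b) = st b * st a
  one : st 1 = 1
  two : ∀ a, st (st a) = a
  sym : ∀ w ∈ W, st w = w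
  sq : ∀ w ∈ W, ∃ c : k, w * w = algebraMap k A c
  dim : finrank k W = 5
  act : ∀ g, st g * g = 1 → g * st g = 1 → ∀ w ∈ W, g * w * st g ∈ W
  ani : ∀ a, st a * a = 0 → a = 0
  cen : ∀ a, (∀ w ∈ W, a * w = w * a) → ∃ c, a = algebraMap k A c

variable {k A : Type} [Field k] [Ring A] [Algebra k A]

/-- anticommuting elements -/
def Or (v w : A) : Prop := v * w = -(w * v)

theorem Or.symm {v w : A} (h : Or v w) : Or w v := by
  unfold Or at *
  rw [h, neg_neg]

theorem Or.mv {v w : A} (h : Or v w) (z : A) : v * (w * z) = -(w * (v * z)) := by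
  rw [← mul_assoc, h, neg_mul, mul_assoc]

theorem Or.add {v w z : A} (h : Or v w) (h' : Or v z) : Or v (w + z) := by
  unfold Or at *
  rw [mul_add, add_mul, h, h', neg_add]

theorem Or.smul {v w : A} (h : Or v w) (c : k) : Or v (c • w) := by
  unfold Or at *
  rw [mul_smul_comm, smul_mul_assoc, h, smul_neg]

theorem Or.comm {z v w : A} (h : Or z v) (h' : Or z w) : z * (v * w) = v * w * z := by
  rw [h.mv, h', mul_neg, neg_neg, mul_assoc]

namespace KS

variable (S : KS k A)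

/-- The unitary group. -/
def G : Subgroup Aˣ where
  carrier := {g | S.st g * g = 1}
  mul_mem' := fun {a b} ha hb => by
    show S.st (a * b) * (a * b) = 1
    rw [S.mul, mul_assoc, ← mul_assoc (S.st a), show S.st a * a = 1 from ha, one_mul]
    exact hb
  one_mem' := (mul_one _).trans S.one
  inv_mem' := fun {a} ha => by
    show S.st (a⁻¹ : Aˣ) * (a⁻¹ : Aˣ) = 1
    rw [Units.inv_eq_of_mul_eq_one_left (show S.st a * a = 1 from ha), S.two]
    rw [← Units.inv_eq_of_mul_eq_one_left (show S.st a * a = 1 from ha), Units.mul_inv]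

variable {S}

/-- the underlying element -/
def vl (g : S.G) : A := g.1.1

theorem vl_mul (g h : S.G) : vl (g * h) = vl g * vl h := rfl

theorem vl_ext {g h : S.G} (e : vl g = vl h) : g = h := Subtype.ext (Units.ext e)

theorem vl_inv (g : S.G) : vl g⁻¹ = S.st (vl g) := Units.inv_eq_of_mul_eq_one_left g.2

theorem vl_1 (g : S.G) : vl g⁻¹ * vl g = 1 := by rw [← vl_mul, inv_mul_cancel]; rfl

theorem vl_2 (g : S.G) : vl g * vl g⁻¹ = 1 := by rw [← vl_mul, mul_inv_cancel]; rfl

theorem vl_3 (g : S.G) (z : A) : vl g⁻¹ * (vl g * z) = z := by rw [← mul_assoc, vl_1, one_mul]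

theorem vl_4 (g : S.G) (z : A) : vl g * (vl g⁻¹ * z) = z := by rw [← mul_assoc, vl_2, one_mul]

theorem vl_mem (g : S.G) {w : A} (h : w ∈ S.W) : vl g * w * vl g⁻¹ ∈ S.W := by
  rw [vl_inv]
  exact S.act _ g.2 (vl_inv g ▸ vl_2 g) w h

theorem ex_G {a : A} (h : S.st a * a = 1) (h' : a * S.st a = 1) : ∃ g : S.G, vl g = a :=
  ⟨⟨⟨a, S.st a, h', h⟩, h⟩, rfl⟩

variable (S)

include S in
theorem inj : Function.Injective (algebraMap k A) := by
  haveI : Nontrivial S.W := Module.nontrivial_of_finrank_pos (R := k) (by rw [S.dim]; omega)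
  haveI : Nontrivial A := S.W.subtype_injective.nontrivial
  exact (algebraMap k A).injective

theorem fin : FiniteDimensional k S.W := Module.finite_of_finrank_eq_succ S.dim

theorem st_alg (c : k) : S.st (algebraMap k A c) = algebraMap k A c := by
  rw [Algebra.algebraMap_eq_smul_one, map_smul, S.one]

/-- a retraction -/
noncomputable def r : A →ₗ[k] k :=
  ((Algebra.linearMap k A).exists_leftInverse_of_injective (LinearMap.ker_eq_bot.2 S.inj)).choose

theorem r_alg (c : k) : S.r (algebraMap k A c) = c :=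
  LinearMap.congr_fun ((Algebra.linearMap k A).exists_leftInverse_of_injective
    (LinearMap.ker_eq_bot.2 S.inj)).choose_spec c

/-- the quadratic form -/
noncomputable def q : QuadraticForm k A :=
  LinearMap.BilinMap.toQuadraticMap ((LinearMap.mul k A).compr₂ S.r)

theorem q_def (w : A) : S.q w = S.r (w * w) := rfl

variable {S}

theorem sq' {w : A} (h : w ∈ S.W) : w * w = algebraMap k A (S.q w) := by
  obtain ⟨c, hc⟩ := S.sq w h
  rw [q_def, hc, r_alg]

theorem sq2 {w : A} (h : w ∈ S.W) (z : A) : w * (w * z) = S.q w • z := by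
  rw [← mul_assoc, sq' h, Algebra.smul_def]

theorem sq1 {w : A} (h : w ∈ S.W) : w * w = S.q w • (1 : A) := by
  rw [sq' h, Algebra.algebraMap_eq_smul_one]

theorem q_ne {w : A} (h : w ∈ S.W) (h0 : w ≠ 0) : S.q w ≠ 0 := fun e =>
  h0 (S.ani w (by rw [S.sym w h, sq' h, e, map_zero]))

theorem pol {v w : A} (hv : v ∈ S.W) (hw : w ∈ S.W) :
    v * w + w * v = algebraMap k A (polar S.q v w) := by
  rw [polar, map_sub, map_sub, ← sq' hv, ← sq' hw, ← sq' (add_mem hv hw)]
  noncomm_ring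

theorem or_iff {v w : A} (hv : v ∈ S.W) (hw : w ∈ S.W) : polar S.q v w = 0 ↔ Or v w := by
  rw [← map_eq_zero_iff _ S.inj, ← pol hv hw, add_eq_zero_iff_eq_neg]
  rfl

theorem cancel {w a b : A} (h : w ∈ S.W) (h0 : w ≠ 0) (e : a * w = b * w) : a = b := by
  have := congrArg (· * w) e
  simp only [mul_assoc, sq1 h, mul_smul_comm, mul_one] at this
  exact smul_right_injective _ (q_ne h h0) this

theorem ex4 {a b c d : A} (ha : a ∈ S.W) (hb : b ∈ S.W) (hc : c ∈ S.W) (hd : d ∈ S.W) :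
    ∃ w ∈ S.W, w ≠ 0 ∧ Or a w ∧ Or b w ∧ Or c w ∧ Or d w := by
  haveI := S.fin
  obtain ⟨z, h0, h⟩ := P011UM5.exists_orth (S.q.comp S.W.subtype)
    ![⟨a, ha⟩, ⟨b, hb⟩, ⟨c, hc⟩, ⟨d, hd⟩] (by rw [S.dim]; omega)
  exact ⟨z, z.2, fun e => h0 (Subtype.ext e), (or_iff ha z.2).1 (h 0), (or_iff hb z.2).1 (h 1),
    (or_iff hc z.2).1 (h 2), (or_iff hd z.2).1 (h 3)⟩

variable (S) in
/-- orthogonal pairs -/
structure F2 (a b : A) : Prop where
  ma : a ∈ S.W
  mb : b ∈ S.W
  na : a ≠ 0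
  nb : b ≠ 0
  ab : Or a b

variable (S) in
/-- frames -/
structure F5 (a b c d e : A) : Prop extends S.F2 a b where
  mc : c ∈ S.W
  md : d ∈ S.W
  me : e ∈ S.W
  nc : c ≠ 0
  nd : d ≠ 0
  ne : e ≠ 0
  ac : Or a c
  ad : Or a d
  ae : Or a e
  bc : Or b c
  bd : Or b d
  be : Or b e
  cd : Or c d
  ce : Or c e
  de : Or d e

theorem ex2 {a b c : A} (ha : a ∈ S.W) (hb : b ∈ S.W) (hc : c ∈ S.W) :
    ∃ u v, S.F2 u v ∧ (Or a u ∧ Or a v) ∧ (Or b u ∧ Or b v) ∧ Or c u ∧ Or c v := by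
  obtain ⟨u, h1, h2, h3, h4, h5, -⟩ := ex4 ha hb hc hc
  obtain ⟨v, g1, g2, g3, g4, g5, g6⟩ := ex4 ha hb hc h1
  exact ⟨u, v, ⟨h1, g1, h2, g2, g6⟩, ⟨h3, g3⟩, ⟨h4, g4⟩, h5, g5⟩

theorem F2.ext {a b : A} (h : S.F2 a b) : ∃ c d e, S.F5 a b c d e := by
  obtain ⟨c, h1, h2, h3, h4, -⟩ := ex4 h.ma h.mb h.mb h.mb
  obtain ⟨d, e, g, g1, g2, g3⟩ := ex2 h.ma h.mb h1
  exact ⟨c, d, e, h, h1, g.ma, g.mb, h2, g.na, g.nb, h3, g1.1, g1.2, h4, g2.1, g2.2, g3.1, g3.2,
    g.ab⟩

theorem ext1 {a : A} (h : a ∈ S.W) (h0 : a ≠ 0) : ∃ b c d e, S.F5 a b c d e := by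
  obtain ⟨b, h1, h2, h3, -⟩ := ex4 h h h h
  exact ⟨b, F2.ext ⟨h, h1, h0, h2, h3⟩⟩

variable [CharZero k] {a b c d e : A}

theorem F5.cen (h : S.F5 a b c d e) {z : A} (ha : z * a = a * z) (hb : z * b = b * z)
    (hc : z * c = c * z) (hd : z * d = d * z) (he : z * e = e * z) : ∃ t, z = algebraMap k A t := by
  haveI := S.fin
  let f : Fin 5 → S.W := ![⟨a, h.ma⟩, ⟨b, h.mb⟩, ⟨c, h.mc⟩, ⟨d, h.md⟩, ⟨e, h.me⟩]
  have h1 : LinearIndependent k f := by
    refine LinearMap.linearIndependent_of_isOrthoᵢ (B := (S.q.comp S.W.subtype).polarBilin)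
      (fun i j hij => (or_iff (f i).2 (f j).2).2 ?_) fun i hi => ?_
    · fin_cases i <;> fin_cases j <;> first
        | exact absurd rfl hij
        | exact h.ab | exact h.ac | exact h.ad | exact h.ae | exact h.bc | exact h.bd | exact h.be
        | exact h.cd | exact h.ce | exact h.de | exact h.ab.symm | exact h.ac.symm
        | exact h.ad.symm | exact h.ae.symm | exact h.bc.symm | exact h.bd.symm | exact h.be.symm
        | exact h.cd.symm | exact h.ce.symm | exact h.de.symm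
    · have h2 : polar S.q (f i).1 (f i).1 = 0 := hi
      rw [polar_self, two_smul, ← two_mul, mul_eq_zero] at h2
      refine q_ne (f i).2 ?_ (h2.resolve_left two_ne_zero)
      fin_cases i
      exacts [h.na, h.nb, h.nc, h.nd, h.ne]
  have h2 := h1.span_eq_top_of_card_eq_finrank (by rw [S.dim]; rfl)
  refine S.cen z fun w hw => ?_
  have h3 : (⟨w, hw⟩ : S.W) ∈ Submodule.span k (Set.range f) := h2 ▸ Submodule.mem_top
  refine Submodule.span_induction (p := fun w _ => z * w.1 = w.1 * z) ?_ (by simp) ?_ ?_ h3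
  · rintro _ ⟨i, rfl⟩
    fin_cases i
    exacts [ha, hb, hc, hd, he]
  · intro x y _ _ hx hy
    rw [Submodule.coe_add, mul_add, add_mul, hx, hy]
  · intro t x _ hx
    rw [Submodule.coe_smul, mul_smul_comm, smul_mul_assoc, hx]

theorem F5.om (h : S.F5 a b c d e) : ∃ t : k, t ≠ 0 ∧ b * c * (d * e) = t • a ∧
    t ^ 2 * S.q a = S.q b * S.q c * S.q d * S.q e := by
  have R := And.intro (And.intro (And.intro h.ab.symm.mv h.ac.symm.mv)
    (And.intro h.ad.symm.mv (And.intro h.ae.symm.mv h.bc.symm.mv)))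
    (And.intro (And.intro h.bd.symm.mv h.be.symm.mv)
      (And.intro h.cd.symm.mv (And.intro h.ce.symm.mv h.de.symm.mv)))
  have R2 := And.intro (And.intro (sq2 h.ma) (sq2 h.mb))
    (And.intro (sq2 h.mc) (And.intro (sq2 h.md) (sq2 h.me)))
  have c1 : ∀ x : A, a * (b * (c * (d * (e * (x * 1))))) = x * (a * (b * (c * (d * (e * 1))))) →
      a * (b * c * (d * e)) * x = x * (a * (b * c * (d * e))) := fun x hx => by
    simpa only [mul_assoc, mul_one] using hx
  obtain ⟨t, ht⟩ := h.cen (z := a * (b * c * (d * e)))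
    (c1 a (by simp only [R, R2, mul_neg, neg_neg, mul_smul_comm, smul_neg]))
    (c1 b (by simp only [R, R2, mul_neg, neg_neg, mul_smul_comm, smul_neg]))
    (c1 c (by simp only [R, R2, mul_neg, neg_neg, mul_smul_comm, smul_neg]))
    (c1 d (by simp only [R, R2, mul_neg, neg_neg, mul_smul_comm, smul_neg]))
    (c1 e (by simp only [R, R2, mul_neg, neg_neg, mul_smul_comm, smul_neg]))
  have qa := q_ne h.ma h.na
  have h1 : b * c * (d * e) = (t / S.q a) • a := by
    apply smul_right_injective _ qa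
    show S.q a • _ = S.q a • _
    rw [← sq2 h.ma, ht, smul_smul, mul_div_cancel₀ _ qa, ← Algebra.commutes, Algebra.smul_def]
  have h2 : (t / S.q a) ^ 2 * S.q a = S.q b * S.q c * S.q d * S.q e := by
    apply S.inj
    have h3 : b * c * (d * e) * (b * c * (d * e) * 1) =
        (S.q b * S.q c * S.q d * S.q e) • (1 : A) := by
      simp only [mul_assoc, R, R2, mul_neg, neg_neg, mul_smul_comm, smul_neg, smul_smul]
      congr 1
      ring
    rw [h1, mul_one, smul_mul_smul_comm, sq1 h.ma, smul_smul] at h3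
    rw [Algebra.algebraMap_eq_smul_one, Algebra.algebraMap_eq_smul_one, ← h3, pow_two]
  refine ⟨_, fun e0 => ?_, h1, h2⟩
  rw [e0, zero_pow two_ne_zero, zero_mul] at h2
  exact mul_ne_zero (mul_ne_zero (mul_ne_zero (q_ne h.mb h.nb) (q_ne h.mc h.nc)) (q_ne h.md h.nd))
    (q_ne h.me h.ne) h2.symm

end KS

end Vale.Agent.P011UGB4
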