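import Vale.Agent.P011UGB4.Fx
import Vale.Agent.P011U.Top
import Mathlib.Algebra.QuaternionBasis

/-!
Type `B₂`: the unitary group over the quaternion algebra and the assembly.
-/

set_option autoImplicit false
set_option linter.all false

namespace Vale.Agent.P011UGB4

open Matrix Vale.Agent.P011L Vale.Agent.P183CH Vale.Agent.P011U Vale.Agent.P011UK
  Vale.Agent.P011UGA
open scoped Quaternion

variable {k K : Type} [Field k] [Field K] [Algebra k K] {ε : (K ≃ₐ[k] K) →* ℤˣ} {u v : K}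
  {c₁ c₂ b : k}

/-- The data of the quadratic extension. -/
structure QE (ε : (K ≃ₐ[k] K) →* ℤˣ) (u v : K) (c₁ c₂ : k) : Prop where
  g : Cj ε u v
  ne : u ≠ v
  h1 : algebraMap k K c₁ = -(u * v)
  h2 : algebraMap k K c₂ = u + v

/-- the element with the coordinates `x`, `y` -/
def co (u : K) (x y : k) : K := algebraMap k K x + algebraMap k K y * u

namespace QE

variable (E : QE ε u v c₁ c₂)
include E

theorem cj (x y : k) : Cj ε (co u x y) (co v x y) := (Cj.alg _).add ((Cj.alg _).mul E.g)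

theorem zero {x y : k} (h : co u x y = 0) (h' : co v x y = 0) : x = 0 ∧ y = 0 := by
  have h1 : algebraMap k K y * (u - v) = 0 := by
    unfold co at h h'
    linear_combination h - h'
  obtain rfl : y = 0 := (map_eq_zero (algebraMap k K)).1
    ((mul_eq_zero.1 h1).resolve_right (sub_ne_zero.2 E.ne))
  simpa [co] using h

theorem ex [IsGalois k K] {z z' : K} (h : Cj ε z z') :
    ∃ x y : k, co u x y = z ∧ co v x y = z' := by
  have r : ∀ {c : K}, Cj ε c c → ∃ x, algebraMap k K x = c := fun a =>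
    (InfiniteGalois.mem_range_algebraMap_iff_fixed _).2 a.fix
  have n := sub_ne_zero.2 E.ne
  have n' := sub_ne_zero.2 E.ne.symm
  obtain ⟨y, hy⟩ := r (c := (z - z') / (u - v)) (by
    have := (h.sub h.symm).div (E.g.sub E.g.symm)
    rwa [show (z' - z) / (v - u) = (z - z') / (u - v) by field_simp; ring] at this)
  obtain ⟨x, hx⟩ := r (c := (z' * u - z * v) / (u - v)) (by
    have := ((h.symm.mul E.g).sub (h.mul E.g.symm)).div (E.g.sub E.g.symm)
    rwa [show (z * v - z' * u) / (v - u) = (z' * u - z * v) / (u - v) by field_simp; ring] at this)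
  refine ⟨x, y, ?_, ?_⟩ <;> rw [co, hx, hy] <;> field_simp <;> ring

variable (b) in
/-- the splitting of the quaternion algebra -/
def bs : QuaternionAlgebra.Basis (Matrix (Fin 2) (Fin 2) K) c₁ c₂ b where
  i := !![u, 0; 0, v]
  j := !![0, 1; algebraMap k K b, 0]
  k := !![0, u; algebraMap k K b * v, 0]
  i_mul_i := by
    ext i j
    fin_cases i <;> fin_cases j <;> simp [Algebra.smul_def (R := k) (A := K), E.h1, E.h2] <;> ring
  j_mul_j := by
    ext i j
    fin_cases i <;> fin_cases j <;> simp [Algebra.smul_def (R := k) (A := K)]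
  i_mul_j := by
    ext i j
    fin_cases i <;> fin_cases j <;> simp [mul_comm]
  j_mul_i := by
    ext i j
    fin_cases i <;> fin_cases j <;> simp [Algebra.smul_def (R := k) (A := K), E.h2] <;> ring

theorem bs_val (x : ℍ[k,c₁,c₂,b]) : (E.bs b).liftHom x =
    !![co u x.re x.imI, co u x.imJ x.imK; algebraMap k K b * co v x.imJ x.imK, co v x.re x.imI] := by
  ext i j
  fin_cases i <;> fin_cases j <;>
    simp [bs, co, QuaternionAlgebra.Basis.lift, Algebra.smul_def (R := k) (A := K), algebraMap_matrix_apply] <;> ring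

variable (b) in
/-- the splitting of the matrix algebra -/
noncomputable def ph : Matrix (Fin 2) (Fin 2) ℍ[k,c₁,c₂,b] →+* Matrix (Fin 4) (Fin 4) K :=
  ((compRingEquiv (Fin 2) (Fin 2) K).trans
    (reindexRingEquiv K (finProdFinEquiv (m := 2) (n := 2)))).toRingHom.comp
      (E.bs b).liftHom.toRingHom.mapMatrix

theorem ph_val (m : Matrix (Fin 2) (Fin 2) ℍ[k,c₁,c₂,b]) : E.ph b m =
    !![co u (m 0 0).re (m 0 0).imI, co u (m 0 0).imJ (m 0 0).imK,
        co u (m 0 1).re (m 0 1).imI, co u (m 0 1).imJ (m 0 1).imK;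
      algebraMap k K b * co v (m 0 0).imJ (m 0 0).imK, co v (m 0 0).re (m 0 0).imI,
        algebraMap k K b * co v (m 0 1).imJ (m 0 1).imK, co v (m 0 1).re (m 0 1).imI;
      co u (m 1 0).re (m 1 0).imI, co u (m 1 0).imJ (m 1 0).imK,
        co u (m 1 1).re (m 1 1).imI, co u (m 1 1).imJ (m 1 1).imK;
      algebraMap k K b * co v (m 1 0).imJ (m 1 0).imK, co v (m 1 0).re (m 1 0).imI,
        algebraMap k K b * co v (m 1 1).imJ (m 1 1).imK, co v (m 1 1).re (m 1 1).imI] := by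
  have h : ∀ i j p q : Fin 2, E.ph b m (finProdFinEquiv (i, p)) (finProdFinEquiv (j, q)) =
      (E.bs b).liftHom (m i j) p q := fun i j p q => by
    simp [ph]
  simp only [bs_val] at h
  ext i j
  fin_cases i <;> fin_cases j
  exacts [h 0 0 0 0, h 0 0 0 1, h 0 1 0 0, h 0 1 0 1, h 0 0 1 0, h 0 0 1 1, h 0 1 1 0, h 0 1 1 1,
    h 1 0 0 0, h 1 0 0 1, h 1 1 0 0, h 1 1 0 1, h 1 0 1 0, h 1 0 1 1, h 1 1 1 0, h 1 1 1 1]

theorem ph_inj (hb : b ≠ 0) : Function.Injective (E.ph b) := by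
  refine (injective_iff_map_eq_zero _).2 fun m h => ?_
  have z : ∀ x : ℍ[k,c₁,c₂,b], co u x.re x.imI = 0 → co u x.imJ x.imK = 0 →
      algebraMap k K b * co v x.imJ x.imK = 0 → co v x.re x.imI = 0 → x = 0 :=
    fun x h1 h2 h3 h4 =>
      have h5 := E.zero h1 h4
      have h6 := E.zero h2 ((mul_eq_zero.1 h3).resolve_left ((map_ne_zero _).2 hb))
      QuaternionAlgebra.ext h5.1 h5.2 h6.1 h6.2
  rw [ph_val] at h
  have e := fun i j => congrFun (congrFun h i) j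
  ext i j : 1
  fin_cases i <;> fin_cases j
  exacts [z _ (e 0 0) (e 0 1) (e 1 0) (e 1 1), z _ (e 0 2) (e 0 3) (e 1 2) (e 1 3),
    z _ (e 2 0) (e 2 1) (e 3 0) (e 3 1), z _ (e 2 2) (e 2 3) (e 3 2) (e 3 3)]

theorem ph_star (m : Matrix (Fin 2) (Fin 2) ℍ[k,c₁,c₂,b]) :
    Om K * E.ph b mᴴ = (E.ph b m)ᵀ * Om K := by
  rw [ph_val, ph_val]
  ext i j
  fin_cases i <;> fin_cases j <;> simp [Om, co, Matrix.mul_apply, Fin.sum_univ_four, E.h2] <;> ring

theorem ph_fix (m : Matrix (Fin 2) (Fin 2) ℍ[k,c₁,c₂,b]) (σ : K ≃ₐ[k] K) :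
    E.ph b m * sg ε (Sm (-1) (algebraMap k K b)) σ =
      sg ε (Sm (-1) (algebraMap k K b)) σ * (E.ph b m).map σ := by
  rw [sg, ph_val]
  split_ifs with s
  · rw [one_mul, mul_one]
    ext i j
    fin_cases i <;> fin_cases j <;> simp [co, (E.g σ).1 s]
  · ext i j
    fin_cases i <;> fin_cases j <;>
      simp [co, Sm, Matrix.mul_apply, Fin.sum_univ_four, (E.g σ).2 (neg_of s)] <;> ring

theorem ph_surj [IsGalois k K] {M : Matrix (Fin 4) (Fin 4) K}
    (h : ∀ σ, M * sg ε (Sm (-1) (algebraMap k K b)) σ =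
      sg ε (Sm (-1) (algebraMap k K b)) σ * M.map σ) (hb : b ≠ 0) : ∃ m, E.ph b m = M := by
  have b0 : algebraMap k K b ≠ 0 := (map_ne_zero _).2 hb
  have h1 : ∀ σ, ε σ = 1 → ∀ i j, σ (M i j) = M i j := fun σ s i j => by
    have := h σ
    rw [sg, if_pos s, one_mul, mul_one] at this
    exact (congrFun (congrFun this i) j).symm
  have h2 : ∀ σ, ε σ = -1 → ∀ i j, (M * Sm (-1) (algebraMap k K b)) i j =
      (Sm (-1) (algebraMap k K b) * M.map σ) i j := fun σ s i j => by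
    have := h σ
    rw [sg, if_neg fun e => absurd (s.symm.trans e) (by decide)] at this
    rw [this]
  have z : ∀ i j i' j', (∀ σ, ε σ = -1 → M i j' * algebraMap k K b = σ (M i' j) ∧
      M i j = σ (M i' j') ∧ M i' j' * algebraMap k K b = algebraMap k K b * σ (M i j) ∧
      M i' j = algebraMap k K b * σ (M i j')) → ∃ x : ℍ[k,c₁,c₂,b], co u x.re x.imI = M i j ∧
        co u x.imJ x.imK = M i j' ∧ algebraMap k K b * co v x.imJ x.imK = M i' j ∧
        co v x.re x.imI = M i' j' := fun i j i' j' H => by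
    obtain ⟨x, y, e1, e2⟩ := E.ex (z := M i j) (z' := M i' j') fun σ =>
      ⟨fun s => ⟨h1 σ s _ _, h1 σ s _ _⟩, fun s =>
        ⟨mul_left_cancel₀ b0 ((H σ s).2.2.1.symm.trans (mul_comm _ _)), (H σ s).2.1.symm⟩⟩
    obtain ⟨x', y', e3, e4⟩ := E.ex (z := M i j') (z' := M i' j / algebraMap k K b) fun σ =>
      ⟨fun s => ⟨h1 σ s _ _, by rw [map_div₀, h1 σ s, σ.commutes]⟩, fun s =>
        ⟨by rw [(H σ s).2.2.2, mul_div_cancel_left₀ _ b0],
          by rw [map_div₀, σ.commutes, ← (H σ s).1, mul_div_cancel_right₀ _ b0]⟩⟩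
    exact ⟨⟨x, y, x', y'⟩, e1, e3, by rw [e4, mul_div_cancel₀ _ b0], e2⟩
  have w : ∀ i j i' j' : Fin 4, (i, i') = (0, 1) ∨ (i, i') = (2, 3) →
      (j, j') = (0, 1) ∨ (j, j') = (2, 3) → _ := fun i j i' j' hi hj => z i j i' j' fun σ s => by
    have a1 := h2 σ s i j
    have a2 := h2 σ s i j'
    have a3 := h2 σ s i' j
    have a4 := h2 σ s i' j'
    rcases hi with ⟨⟨⟩⟩ | ⟨⟨⟩⟩ <;> rcases hj with ⟨⟨⟩⟩ | ⟨⟨⟩⟩ <;>
      simp [Sm, Matrix.mul_apply, Fin.sum_univ_four, -mul_eq_mul_left_iff] at a1 a2 a3 a4 <;>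
      exact ⟨a1, a2, a3, a4⟩
  obtain ⟨x0, p0⟩ := w 0 0 1 1 (.inl rfl) (.inl rfl)
  obtain ⟨x1, p1⟩ := w 0 2 1 3 (.inl rfl) (.inr rfl)
  obtain ⟨x2, p2⟩ := w 2 0 3 1 (.inr rfl) (.inl rfl)
  obtain ⟨x3, p3⟩ := w 2 2 3 3 (.inr rfl) (.inr rfl)
  refine ⟨!![x0, x1; x2, x3], ?_⟩
  rw [ph_val]
  ext i j
  fin_cases i <;> fin_cases j <;> simp [p0, p1, p2, p3]

theorem ph_UH [IsGalois k K] (hb : b ≠ 0) (H : Matrix (Fin 2) (Fin 2) ℍ[k,c₁,c₂,b]) :
    PSimple (UH H) ↔ PSimple (Fx ε (Om K * E.ph b H) (Sm (-1) (algebraMap k K b))) := by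
  obtain ⟨o, ho⟩ := ex_GL (P := Om K) (M := -Om K) (by rw [neg_mul, Om_sq, neg_neg])
  have h1 : ∀ m, (E.ph b m)ᵀ * (Om K * E.ph b H) * E.ph b m = Om K * E.ph b H ↔ mᴴ * H * m = H :=
    fun m => by
      rw [← mul_assoc, ← ph_star, mul_assoc, mul_assoc, ← map_mul, ← map_mul, ← mul_assoc, ← ho,
        o.isUnit.mul_right_inj, (E.ph_inj hb).eq_iff]
  refine ps_map (Units.map (E.ph b).toMonoidHom) (Units.map_injective (E.ph_inj hb))
    (Subgroup.ext fun g => ⟨?_, fun hg => ?_⟩)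
  · rintro ⟨g, hg, rfl⟩
    exact mem_Fx.2 ⟨(h1 _).2 hg, E.ph_fix _⟩
  · obtain ⟨m, hm⟩ := E.ph_surj (mem_Fx.1 hg).2 hb
    obtain ⟨m', hm'⟩ := E.ph_surj (mem_Fx.1 (inv_mem hg)).2 hb
    exact ⟨⟨m, m', E.ph_inj hb (by rw [map_mul, hm, hm', map_one, Units.mul_inv]),
      E.ph_inj hb (by rw [map_mul, hm, hm', map_one, Units.inv_mul])⟩,
      (h1 m).1 (hm ▸ (mem_Fx.1 hg).1), Units.ext hm⟩

theorem to_UH [IsGalois k K] (hb : b ≠ 0) {d : k} (hd : d ≠ 0) :
    PSimple (UH (Hc c₁ c₂ b (-d⁻¹))) ↔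
      PSimple (Fx ε (Om K) (Sm (algebraMap k K d) (algebraMap k K b))) := by
  have d0 : algebraMap k K d ≠ 0 := (map_ne_zero _).2 hd
  obtain ⟨p, hp⟩ := ex_GL (P := diagonal ![-(algebraMap k K d)⁻¹, 1, 1, 1])
    (M := diagonal ![-algebraMap k K d, 1, 1, 1]) (by
      ext i j
      fin_cases i <;> fin_cases j <;> simp [d0])
  refine (E.ph_UH hb _).trans (Fx_cj p one_ne_zero ?_ fun σ => ⟨1, one_ne_zero, ?_⟩)
  · rw [hp, ph_val]
    ext i j
    fin_cases i <;> fin_cases j <;> simp [Om, Hc, co, Matrix.mul_apply, Fin.sum_univ_four]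
  · rw [hp, sg, sg]
    split_ifs <;> ext i j <;> fin_cases i <;> fin_cases j <;>
      simp [Sm, Matrix.mul_apply, Fin.sum_univ_four, d0]
    field_simp

theorem nrm (x : ℍ[k,c₁,c₂,b]) : algebraMap k K (star x * x).re =
    co u x.re x.imI * co v x.re x.imI -
      algebraMap k K b * (co u x.imJ x.imK * co v x.imJ x.imK) := by
  simp [co, E.h1, E.h2]
  ring

theorem div (hε : ∃ θ, ε θ = -1) (h : ∀ z z', Cj ε z z' → algebraMap k K b ≠ z * z')
    (x : ℍ[k,c₁,c₂,b]) (x0 : x ≠ 0) : IsUnit x := by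
  have h1 : (star x * x).re ≠ 0 := fun e => x0 (by
    have h2 := E.nrm x
    rw [e, map_zero, eq_comm, sub_eq_zero] at h2
    have h3 : co u x.imJ x.imK = 0 := by_contra fun n => h _ _
      ((E.cj x.re x.imI).div (E.cj x.imJ x.imK)) (by
      have n' := (E.cj _ _).ne hε n
      rw [div_mul_div_comm, h2, mul_div_cancel_right₀ _ (mul_ne_zero n n')])
    have z : ∀ a b : k, co u a b * co v a b = 0 → a = 0 ∧ b = 0 := fun a b e =>
      E.zero (by_contra fun n => mul_ne_zero n ((E.cj _ _).ne hε n) e)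
        (by_contra fun n => mul_ne_zero ((E.cj _ _).symm.ne hε n) n e)
    have h4 := z x.imJ x.imK (by rw [h3, zero_mul])
    have h5 := z x.re x.imI (by rw [h2, h3, zero_mul, mul_zero])
    exact QuaternionAlgebra.ext h5.1 h5.2 h4.1 h4.2)
  have h2 : star x * x = (star x * x).re • (1 : ℍ[k,c₁,c₂,b]) :=
    x.star_mul_eq_coe.trans (Algebra.algebraMap_eq_smul_one (R := k) _)
  refine ⟨⟨x, (star x * x).re⁻¹ • star x, ?_, ?_⟩, rfl⟩
  · rw [mul_smul_comm, ← star_comm_self', inv_smul_eq_iff₀ h1, ← h2]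
  · rw [smul_mul_assoc, inv_smul_eq_iff₀ h1, ← h2]

end QE

theorem ex_QE [IsGalois k K] (g : Cj ε u v) (ne : u ≠ v) :
    ∃ c₁ c₂ : k, QE ε u v c₁ c₂ ∧ c₂ ^ 2 + 4 * c₁ ≠ 0 := by
  have r : ∀ {c : K}, Cj ε c c → ∃ x, algebraMap k K x = c := fun a =>
    (InfiniteGalois.mem_range_algebraMap_iff_fixed _).2 a.fix
  obtain ⟨T, hT⟩ := r (add_comm v u ▸ g.add g.symm : Cj ε (u + v) (u + v))
  obtain ⟨N, hN⟩ := r (mul_comm v u ▸ g.mul g.symm : Cj ε (u * v) (u * v))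
  refine ⟨-N, T, ⟨g, ne, by rw [map_neg, hN], hT⟩, fun e => ?_⟩
  have := congrArg (algebraMap k K) e
  rw [map_add, map_mul, map_pow, map_neg, hT, hN, map_ofNat, map_zero] at this
  exact pow_ne_zero 2 (sub_ne_zero.2 ne) (by linear_combination this)

/-- **Type `B₂`.** -/
theorem bb2_of (sp : SP) (hy : HYP) (an : ANI) : BB2 := by
  intro k K _ _ _ _ D hk hD T ε π d h ⟨e, he⟩ hε
  haveI := P011U.Glob.inf hk
  haveI : Infinite K := Infinite.of_injective _ (algebraMap k K).injective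
  obtain ⟨hπ, h1⟩ := fix_Fx sp hD h he
  choose d' hd using fun i => (InfiniteGalois.mem_range_algebraMap_iff_fixed (k := k)
    (d i : K)).2 fun σ => (h.eqt σ trivial i).symm.trans (by rw [hπ])
  have d0 : ∀ i, d' i ≠ 0 := fun i e => (d i).ne_zero (by rw [← hd, e, map_zero])
  rw [h1, ← hd, ← hd]
  generalize d' (e.symm 0) = b, d0 (e.symm 0) = hb, d' (e.symm 1) = c, d0 (e.symm 1) = hc
  obtain ⟨F, hF, h2⟩ := h.near
  obtain ⟨u, v, g, ne⟩ := ex_gen hε F fun σ hσ =>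
    (h2 σ ((IntermediateField.mem_fixingSubgroup_iff _ _).1 hσ)).1
  by_cases h3 : ∃ z z', Cj ε z z' ∧ algebraMap k K b = z * z'
  · obtain ⟨z, z', g', h3⟩ := h3
    have h4 := mul_ne_zero_iff.1 (h3 ▸ (map_ne_zero _).2 hb : z * z' ≠ 0)
    exact (to_split hc g ne g' h4.1 h4.2 h3).1 (ps_split sp hD he)
  push Not at h3
  have c0 : -c⁻¹ ≠ 0 := neg_ne_zero.2 (inv_ne_zero hc)
  by_cases nf : NumberField k
  · haveI : CharZero K := charZero_of_injective_algebraMap (algebraMap k K).injective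
    obtain ⟨c₁, c₂, E, h4⟩ := ex_QE (g.sub g.symm) fun e => ne (by
      linear_combination (exp := 1) (1 / 2) * e)
    obtain rfl : c₂ = 0 := (map_eq_zero (algebraMap k K)).1 (E.h2.trans (by ring))
    refine (E.to_UH hb hc).1 ?_
    by_cases h5 : ∃ y : ℍ[k,c₁,0,b], star y * y = algebraMap k _ (- -c⁻¹)
    · exact hy k c₁ 0 b _ c0 h4 (E.div hε h3) h5
    refine an k c₁ b _ (fun e => h4 (by simp [e])) hb c0 fun x y h6 => ?_
    have x0 : x = 0 := by_contra fun x0 => h5 (by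
      obtain ⟨x, rfl⟩ := E.div hε h3 x x0
      refine ⟨y * x⁻¹, ?_⟩
      rw [star_mul, mul_assoc, ← mul_assoc (star y), eq_neg_of_add_eq_zero_right h6, neg_mul,
        mul_neg, mul_assoc, mul_assoc, Units.mul_inv, mul_one, ← mul_assoc, ← Algebra.commutes,
        mul_assoc, ← star_mul, Units.mul_inv, star_one, mul_one, map_neg (algebraMap k _) (-c⁻¹)])
    refine ⟨x0, by_contra fun y0 => ?_⟩
    rw [x0, mul_zero, mul_zero, zero_add] at h6
    obtain ⟨y, rfl⟩ := E.div hε h3 y y0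
    exact y0 (star_eq_zero.1 (y.mul_left_eq_zero.1 h6))
  · obtain ⟨c₁, c₂, E, h4⟩ := ex_QE g ne
    refine (E.to_UH hb hc).1 (hy k c₁ c₂ b _ c0 h4 (E.div hε h3) ?_)
    obtain ⟨x, x', y, y', g1, g2, h5⟩ := (P011UK.h3 hk nf hε g ne).one hε g ne (Cj.alg (-b))
      (Cj.alg (- -c⁻¹)) ((map_ne_zero _).2 (neg_ne_zero.2 hb))
    obtain ⟨p, q, rfl, rfl⟩ := E.ex g1
    obtain ⟨r, s, rfl, rfl⟩ := E.ex g2
    refine ⟨⟨p, q, r, s⟩, (QuaternionAlgebra.star_mul_eq_coe _).trans (congrArg _ ?_)⟩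
    apply (algebraMap k K).injective
    rw [E.nrm]
    rw [map_neg _ b] at h5
    linear_combination -h5

end Vale.Agent.P011UGB4
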